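import Vale.Agent.P111.Bdl.B1
import Vale.Agent.P111.L1.Main

/-!
The two groups of results, as named statements on `X`.
-/

namespace Vale.Agent.P111.H753

open Vale.Agent.P111 Vale.Agent.P111.L1 MeasureTheory

universe u v w

/-- One-sided property (α) inequalities. Let `X` be a Banach space with the BAP.
1. If `X` and `X*` satisfy the one-sided inequality with exponents `s, t` and `s + t < 1/2`,
   then `X` is K-convex.
2. If `X` has cotype `q` and `X*` has cotype `r`, then `X` is K-convex as soon as `X` has the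
   exponent `s < 1/r`, or `X*` has the exponent `t < 1/q`, or `X` or `X*` has property (α).
3. Cotype `q` gives the exponent `1/2 - 1/q`, property (α) gives the exponent `0`. -/
def AlphaForm (X : Type u) [NormedAddCommGroup X] [NormedSpace ℝ X] : Prop :=
    (∀ s t : ℝ, 0 ≤ s → 0 ≤ t → s + t < 1 / 2 → HasUpperAlpha s X →
      HasUpperAlpha t (X →L[ℝ] ℝ) → IsKConvex X) ∧
    (∀ q r : ℝ, HasCotype q X → HasCotype r (X →L[ℝ] ℝ) →
      ((HasPropertyAlpha X ∨ HasPropertyAlpha (X →L[ℝ] ℝ)) ∨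
        (∃ s : ℝ, 0 ≤ s ∧ s < 1 / r ∧ HasUpperAlpha s X) ∨
        (∃ t : ℝ, 0 ≤ t ∧ t < 1 / q ∧ HasUpperAlpha t (X →L[ℝ] ℝ))) → IsKConvex X) ∧
    (∀ q : ℝ, HasCotype q X → HasUpperAlpha (1 / 2 - 1 / q) X) ∧
    (∀ r : ℝ, HasCotype r (X →L[ℝ] ℝ) → HasUpperAlpha (1 / 2 - 1 / r) (X →L[ℝ] ℝ)) ∧
    (HasPropertyAlpha X → HasUpperAlpha 0 X)

theorem alphaForm (X : Type u) [NormedAddCommGroup X] [NormedSpace ℝ X] [CompleteSpace X]
    (hBAP : HasBAP X) :
    AlphaForm X := by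
  have key : ∀ s t : ℝ, 0 ≤ s → 0 ≤ t → s + t < 1 / 2 → HasUpperAlpha s X →
      HasUpperAlpha t (X →L[ℝ] ℝ) → IsKConvex X := fun _ _ hs ht hst h h' =>
    kconvex_of_upperAlpha hs ht hst hBAP h h'
  refine ⟨key, ?_, fun q h => H1.upperAlpha_of_cotype h, fun r h => H1.upperAlpha_of_cotype h,
    fun h => H1.upperAlpha_of_alpha h⟩
  intro q r hq hr h
  have hq2 : 2 ≤ q := hq.1
  have hr2 : 2 ≤ r := hr.1
  have hq0 : 0 < 1 / q := by positivity
  have hr0 : 0 < 1 / r := by positivity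
  have hq1 : 1 / q ≤ 1 / 2 := one_div_le_one_div_of_le (by norm_num) hq2
  have hr1 : 1 / r ≤ 1 / 2 := one_div_le_one_div_of_le (by norm_num) hr2
  rcases h with (h | h) | ⟨s, hs0, hs1, hs⟩ | ⟨t, ht0, ht1, ht⟩
  · exact key 0 (1 / 2 - 1 / r) le_rfl (by linarith) (by linarith)
      (H1.upperAlpha_of_alpha h) (H1.upperAlpha_of_cotype hr)
  · exact key (1 / 2 - 1 / q) 0 (by linarith) le_rfl (by linarith)
      (H1.upperAlpha_of_cotype hq) (H1.upperAlpha_of_alpha h)
  · exact key s (1 / 2 - 1 / r) hs0 (by linarith) (by linarith) hs (H1.upperAlpha_of_cotype hr)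
  · exact key (1 / 2 - 1 / q) t (by linarith) ht0 (by linarith) (H1.upperAlpha_of_cotype hq) ht

/-- Spaces inside `L_1(μ; Y)`, `Y` of type `p₀ > 1`, with `p = r p₀ / (r p₀ - p₀ + 1) > 1`.
1. Every bounded operator from `X` into a space `L_1(μ; Y)`, `Y` of type `p₀`, has type `p`.
2. If `X` is isomorphic to a subspace of some `L_1(μ; Y)` with `Y` of type `p₀`, then `X` has
   type `p`.
3. If `X` has the BAP and its finite-dimensional subspaces embed, with a uniform distortion,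
   into spaces `L_1(μ; Y)` with `Y` of type `p₀` (uniform constant), then `X` has type `p`. -/
def LOneForm (X : Type u) [NormedAddCommGroup X] [NormedSpace ℝ X] (r p₀ : ℝ) : Prop :=
    (∃ C : ℝ, ∀ (Ω : Type w) [MeasurableSpace Ω] (μ : Measure Ω) (Y : Type v)
      [NormedAddCommGroup Y] [NormedSpace ℝ Y] [CompleteSpace Y] (T : ℝ), 0 ≤ T →
      TypeWith p₀ T Y → OpsTypeWith (pexp r p₀) (C * T) X (Lp Y 1 μ)) ∧
    ((∃ T D : ℝ, EmbedsL1.{u, v, w} p₀ T D X) → HasType (pexp r p₀) X) ∧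
    (HasBAP X → (∃ T D : ℝ, ∀ G : Submodule ℝ X, FiniteDimensional ℝ G →
      EmbedsL1.{u, v, w} p₀ T D G) → HasType (pexp r p₀) X)

theorem lOneForm (X : Type u) [NormedAddCommGroup X] [NormedSpace ℝ X] (r : ℝ)
    (hX : HasCotype r (X →L[ℝ] ℝ)) (p₀ : ℝ) (hp₀ : 1 < p₀) :
    LOneForm.{u, v, w} X r p₀ := by
  obtain ⟨hr, C₀, hC₀⟩ := hX
  have hC : CotypeWith r (max C₀ 0) (X →L[ℝ] ℝ) := exists_nonneg_cotype hC₀
  have hC0 : 0 ≤ max C₀ 0 := le_max_right _ _
  have hp1 := one_lt_pexp hr hp₀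
  have hp2 := pexp_le_two hr hp₀
  refine ⟨⟨max C₀ 0 ^ (1 - 1 / p₀), ?_⟩, ?_, ?_⟩
  · intro Ω _ μ Y _ _ _ T hT hY J n x
    have h := operator_type hr hp₀ hC0 hT hC hY J x
    simp only [map_sum, map_smul] at h
    rw [mul_comm (max C₀ 0 ^ (1 - 1 / p₀)) T]
    exact h
  · rintro ⟨T, D, Ω, _, μ, Y, _, _, _, hT, J, hJ⟩
    refine ⟨hp1, hp2, _, type_of_local (D := ‖J‖) hr hp₀ hC0 (le_max_right T 0) hC ?_⟩
    intro n x δ hδ
    refine ⟨Ω, inferInstance, μ, Y, inferInstance, inferInstance, inferInstance, J,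
      exists_nonneg_type hT, le_rfl, fun a _ => ?_⟩
    have h1 := (hJ (∑ i, a i • x i)).1
    linarith
  · rintro ⟨lam, hlam⟩ ⟨T, D, hG⟩
    refine ⟨hp1, hp2, _, type_of_local (D := max D 0 * lam) hr hp₀ hC0 (le_max_right T 0) hC ?_⟩
    intro n x δ hδ
    obtain ⟨S, hS1, hS2, hS3⟩ := hlam (Set.range x) (Set.finite_range x).isCompact
      (δ / (n + 1)) (by positivity)
    set G : Submodule ℝ X := LinearMap.range (S : X →ₗ[ℝ] X) with hGdef
    obtain ⟨Ω, _, μ, Y, _, _, _, hY, J, hJ⟩ := hG G hS1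
    set S' : X →L[ℝ] G := S.codRestrict G (fun u => ⟨u, rfl⟩) with hS'
    have hS'n : ∀ u, ‖S' u‖ = ‖S u‖ := fun u => rfl
    refine ⟨Ω, inferInstance, μ, Y, inferInstance, inferInstance, inferInstance, J.comp S',
      exists_nonneg_type hY, ?_, ?_⟩
    · have hlam0 : 0 ≤ lam := (norm_nonneg _).trans hS2
      refine ContinuousLinearMap.opNorm_le_bound _ (by positivity) fun u => ?_
      calc ‖J (S' u)‖ ≤ D * ‖S' u‖ := (hJ _).2
        _ ≤ max D 0 * ‖S' u‖ := mul_le_mul_of_nonneg_right (le_max_left _ _) (norm_nonneg _)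
        _ ≤ max D 0 * (lam * ‖u‖) := by
            refine mul_le_mul_of_nonneg_left ?_ (le_max_right _ _)
            rw [hS'n]
            exact (S.le_opNorm u).trans (mul_le_mul_of_nonneg_right hS2 (norm_nonneg _))
        _ = max D 0 * lam * ‖u‖ := by ring
    · intro a ha
      have h1 : ‖S' (∑ i, a i • x i)‖ ≤ ‖J (S' (∑ i, a i • x i))‖ := (hJ _).1
      have h2 : ‖∑ i, a i • x i - S (∑ i, a i • x i)‖ ≤ δ := by
        have e : ∑ i, a i • x i - S (∑ i, a i • x i) = ∑ i, a i • (x i - S (x i)) := by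
          simp [map_sum, smul_sub, Finset.sum_sub_distrib]
        rw [e]
        calc ‖∑ i, a i • (x i - S (x i))‖ ≤ ∑ i, ‖a i • (x i - S (x i))‖ := norm_sum_le _ _
          _ ≤ ∑ _i : Fin n, δ / (n + 1) := by
              refine Finset.sum_le_sum fun i _ => ?_
              rw [norm_smul, Real.norm_eq_abs]
              have h3 := hS3 (x i) ⟨i, rfl⟩
              rw [norm_sub_rev] at h3
              calc |a i| * ‖x i - S (x i)‖ ≤ 1 * (δ / (n + 1)) :=
                    mul_le_mul (ha i) h3.le (norm_nonneg _) zero_le_one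
                _ = _ := one_mul _
          _ = n * (δ / (n + 1)) := by simp
          _ ≤ δ := by
              rw [← mul_div_assoc, div_le_iff₀ (by positivity)]
              nlinarith
      have h4 : ‖∑ i, a i • x i‖ ≤ ‖S (∑ i, a i • x i)‖ + δ := by
        have := norm_le_norm_add_norm_sub' (∑ i, a i • x i) (S (∑ i, a i • x i))
        linarith
      rw [hS'n] at h1
      exact h4.trans (add_le_add_left h1 δ)

end Vale.Agent.P111.H753
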